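import Crest.Agent.R52G.Prob
import Crest.Prelude.Def_CopyThreshold

/-!
Graph-level definitions for statement S0073.
-/

set_option autoImplicit false

namespace Crest.Agent.R52G

open Finset Crest.FinProb Crest.Agent.Lib.CubeFourier Crest.CombinatoricsR.RandomGraph

/-- The family of edge sets containing a copy of `H` is not `r`-small. -/
def NS {W : Type*} (n : ℕ) (H : SimpleGraph W) (r : ℝ) : Prop :=
  ∀ C : Finset (Finset (EdgeSlot n)),
    (∀ A : Finset (EdgeSlot n), H.IsContained (edgeGraph A) → ∃ S ∈ C, S ⊆ A) →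
      1 / 2 < ∑ S ∈ C, r ^ S.card

/-- The coin position of a pair of distinct vertices. -/
def slot {n : ℕ} (a b : Fin n) (h : a ≠ b) : EdgeSlot n := ⟨s(a, b), by simpa using h⟩

theorem adj_graphOf {n : ℕ} (ω : EdgeSlot n → Bool) {a b : Fin n} (h : a ≠ b) :
    (graphOf ω).Adj a b ↔ ω (slot a b h) = true := by
  simp only [graphOf, SimpleGraph.fromEdgeSet_adj, Set.mem_ofPred_eq, slot]
  exact ⟨fun ⟨⟨_, h2⟩, _⟩ => h2, fun h2 => ⟨⟨_, h2⟩, h⟩⟩

theorem adj_edgeGraph {n : ℕ} (A : Finset (EdgeSlot n)) {a b : Fin n} (h : a ≠ b) :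
    (edgeGraph A).Adj a b ↔ slot a b h ∈ A := by
  simp only [edgeGraph, SimpleGraph.fromEdgeSet_adj, Set.mem_ofPred_eq, slot]
  exact ⟨fun ⟨⟨_, h2⟩, _⟩ => h2, fun h2 => ⟨⟨_, h2⟩, h⟩⟩

/-- The random graph contains `J` with probability at least one half. -/
def Good {W : Type*} (n : ℕ) (ρ : ℝ) (J : SimpleGraph W) : Prop :=
  1 / 2 ≤ Pr ρ (fun ω : EdgeSlot n → Bool => J.IsContained (graphOf ω))

theorem gnpProb_eq (n : ℕ) (ρ : ℝ) (E : Set (SimpleGraph (Fin n))) :
    gnpProb n ρ E = Pr ρ (fun ω : EdgeSlot n → Bool => graphOf ω ∈ E) := by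
  classical
  unfold gnpProb Pr
  rw [bernoulliProb_eq_Ex]
  refine Ex_congr ρ fun ω => ?_
  simp only [Set.mem_ofPred_eq]

section Transfer

variable {n : ℕ} {Z X : Type*} [Fintype Z] [DecidableEq Z] [Fintype X] [DecidableEq X]

omit [Fintype Z] [DecidableEq Z] [Fintype X] [DecidableEq X] in
theorem slot_pair_injective (fz : Z → Fin n) (fx : X → Fin n) (hz : Function.Injective fz)
    (hx : Function.Injective fx) (hzx : ∀ z x, fz z ≠ fx x) :
    Function.Injective (fun zx : Z × X => slot (fz zx.1) (fx zx.2) (hzx _ _)) := by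
  rintro ⟨z, x⟩ ⟨z', x'⟩ h
  simp only [slot, Subtype.mk.injEq, Sym2.eq_iff] at h
  rcases h with ⟨h1, h2⟩ | ⟨h1, _⟩
  · rw [hz h1, hx h2]
  · exact absurd h1 (hzx _ _)

/-- A good event on the bipartite part gives a good event of the graph. -/
theorem Pr_rows_le {ρ : ℝ} (h0 : 0 ≤ ρ) (h1 : ρ ≤ 1) (fz : Z → Fin n) (fx : X → Fin n)
    (hz : Function.Injective fz) (hx : Function.Injective fx) (hzx : ∀ z x, fz z ≠ fx x)
    (E : (Z × X → Bool) → Prop) (F : SimpleGraph (Fin n) → Prop)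
    (h : ∀ (G : SimpleGraph (Fin n)) (ω : Z × X → Bool),
      (∀ z x, G.Adj (fz z) (fx x) ↔ ω (z, x) = true) → E ω → F G) :
    Pr ρ E ≤ Pr ρ (fun ω : EdgeSlot n → Bool => F (graphOf ω)) := by
  rw [← Pr_comp_inj ρ _ (slot_pair_injective fz fx hz hx hzx) E]
  exact Pr_mono h0 h1 fun ω hω => h _ _ (fun z x => adj_graphOf ω (hzx z x)) hω

/-- A bad event of the graph that is seen on the bipartite part. -/
theorem Pr_le_rows {ρ : ℝ} (h0 : 0 ≤ ρ) (h1 : ρ ≤ 1) (fz : Z → Fin n) (fx : X → Fin n)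
    (hz : Function.Injective fz) (hx : Function.Injective fx) (hzx : ∀ z x, fz z ≠ fx x)
    (E : (Z × X → Bool) → Prop) (F : SimpleGraph (Fin n) → Prop)
    (h : ∀ (G : SimpleGraph (Fin n)) (ω : Z × X → Bool),
      (∀ z x, G.Adj (fz z) (fx x) ↔ ω (z, x) = true) → F G → E ω) :
    Pr ρ (fun ω : EdgeSlot n → Bool => F (graphOf ω)) ≤ Pr ρ E := by
  rw [← Pr_comp_inj ρ _ (slot_pair_injective fz fx hz hx hzx) E]
  exact Pr_mono h0 h1 fun ω hω => h _ _ (fun z x => adj_graphOf ω (hzx z x)) hω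

end Transfer

/-- The graph of a system of back-neighbourhoods `T` on a vertex set `S`. -/
def backGraph {W : Type*} (S : Finset W) (T : W → Finset W) : SimpleGraph W :=
  SimpleGraph.fromRel (fun v t => v ∈ S ∧ t ∈ T v)

/-- A partial embedding extends to a copy. -/
theorem isContained_backGraph {W : Type*} [Fintype W] [DecidableEq W] {n : ℕ}
    (hW : Fintype.card W ≤ n) (S S' : Finset W) (hS : S ⊆ S') (T : W → Finset W)
    (hT : ∀ v ∈ S, T v ⊆ S') (G : SimpleGraph (Fin n)) (f : W → Fin n)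
    (hf : Set.InjOn f S') (hadj : ∀ v ∈ S, ∀ t ∈ T v, G.Adj (f v) (f t)) :
    (backGraph S T).IsContained G := by
  classical
  obtain ⟨g, hg, hgf⟩ : ∃ g : W → Fin n, Function.Injective g ∧ ∀ v ∈ S', g v = f v := by
    obtain ⟨e⟩ : Nonempty (W ↪ Fin n) :=
      Function.Embedding.nonempty_of_card_le (by simpa using hW)
    obtain ⟨σ, hσ⟩ := Equiv.Perm.exists_extending_pair (f := fun v : S' => e v)
      (g := fun v : S' => f v) (fun a b h => Subtype.ext (e.injective h))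
      (fun a b h => Subtype.ext (hf a.2 b.2 h))
    exact ⟨fun v => σ (e v), σ.injective.comp e.injective, fun v hv => hσ ⟨v, hv⟩⟩
  refine ⟨⟨⟨g, ?_⟩, hg⟩⟩
  intro a b hab
  simp only [backGraph, SimpleGraph.fromRel_adj] at hab
  rcases hab.2 with ⟨h1, h2⟩ | ⟨h1, h2⟩
  · rw [hgf a (hS h1), hgf b (hT a h1 h2)]
    exact hadj a h1 b h2
  · rw [hgf b (hS h1), hgf a (hT b h1 h2)]
    exact (hadj b h1 a h2).symm

end Crest.Agent.R52G
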