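import Crest.Agent.R52G.Prob

/-!
A Hoffman-type bound for spread families, and a balanced splitting of their members.
-/

set_option autoImplicit false

namespace Crest.Agent.R52G

open Finset Crest.FinProb Crest.Agent.Lib.CubeFourier

variable {ι : Type*} [Fintype ι] [DecidableEq ι]

/-- The support of a point of the cube. -/
def sp (x : ι → Bool) : Finset ι := univ.filter (fun i => x i = true)

omit [DecidableEq ι] in
@[simp] theorem mem_sp {x : ι → Bool} {i : ι} : i ∈ sp x ↔ x i = true := by simp [sp]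

open Classical in
theorem hoffman_one {p : ℝ} (h0 : 0 < p) (h1 : p < 1) (A : (ι → Bool) → Prop) (R : Finset ι)
    (hR : ¬ ∃ x y, A x ∧ A y ∧ ∀ i ∈ R, x i = true ∨ y i = true) :
    Pr p A ^ 2 ≤ ∑ I ∈ R.powerset.erase ∅,
      ((1 - p) / p) ^ I.card * coeff p (fun x => if A x then 1 else 0) I ^ 2 := by
  set c := (1 - p) / p with hc
  set f : (ι → Bool) → ℝ := fun x => if A x then 1 else 0 with hf
  have hc0 : 0 ≤ c := div_nonneg (by linarith) h0.le
  have hz : 1 + -(c * (chi1 p false * chi1 p false)) = 0 := by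
    have hs := sig_sq h0.le h1.le
    have hp := sig_pos h0 h1
    unfold chi1
    rw [hc]
    simp only [Bool.false_eq_true, if_false]
    field_simp
    nlinarith
  have hzero : Ex p (fun x => Ex p (fun y => f x * f y *
      ∏ i ∈ R, (1 + -(c * (chi1 p (x i) * chi1 p (y i)))))) = 0 := by
    have : ∀ x y : ι → Bool, f x * f y *
        ∏ i ∈ R, (1 + -(c * (chi1 p (x i) * chi1 p (y i)))) = 0 := by
      intro x y
      by_cases hx : A x
      · by_cases hy : A y
        · have h2 : ¬ ∀ i ∈ R, x i = true ∨ y i = true := fun h => hR ⟨x, y, hx, hy, h⟩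
          push Not at h2
          obtain ⟨i, hi, hxi, hyi⟩ := h2
          rw [Finset.prod_eq_zero hi, mul_zero]
          rw [ne_eq, Bool.not_eq_true] at hxi hyi
          rw [hxi, hyi, hz]
        · simp [hf, hy]
      · simp [hf, hx]
    simp only [this, Ex_const]
  have hexp : Ex p (fun x => Ex p (fun y => f x * f y *
      ∏ i ∈ R, (1 + -(c * (chi1 p (x i) * chi1 p (y i)))))) =
      ∑ I ∈ R.powerset, (-c) ^ I.card * coeff p f I ^ 2 := by
    have h2 : ∀ x y : ι → Bool, f x * f y *
        ∏ i ∈ R, (1 + -(c * (chi1 p (x i) * chi1 p (y i)))) =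
        ∑ I ∈ R.powerset, ((-c) ^ I.card * (f x * chi p I x)) * (f y * chi p I y) := by
      intro x y
      rw [Finset.prod_one_add, Finset.mul_sum]
      refine Finset.sum_congr rfl fun I _ => ?_
      have h3 : ∏ i ∈ I, -(c * (chi1 p (x i) * chi1 p (y i))) =
          (-c) ^ I.card * (chi p I x * chi p I y) := by
        unfold chi
        rw [← Finset.prod_mul_distrib, ← Finset.prod_const, ← Finset.prod_mul_distrib]
        exact Finset.prod_congr rfl fun i _ => by ring
      rw [h3]
      ring
    simp only [h2, Ex_sum, Ex_const_mul, Ex_mul_const]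
    refine Finset.sum_congr rfl fun I _ => ?_
    unfold coeff
    ring
  rw [hexp, ← Finset.add_sum_erase _ _ (Finset.empty_mem_powerset R), coeff_empty] at hzero
  have h4 : Ex p f = Pr p A := rfl
  rw [h4, Finset.card_empty, pow_zero, one_mul] at hzero
  have h5 : -∑ I ∈ R.powerset.erase ∅, (-c) ^ I.card * coeff p f I ^ 2 ≤
      ∑ I ∈ R.powerset.erase ∅, c ^ I.card * coeff p f I ^ 2 := by
    rw [← Finset.sum_neg_distrib]
    refine Finset.sum_le_sum fun I _ => ?_
    have h6 : -(-c) ^ I.card ≤ c ^ I.card := by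
      have := neg_abs_le ((-c) ^ I.card)
      rw [abs_pow, abs_neg, abs_of_nonneg hc0] at this
      linarith
    have := mul_le_mul_of_nonneg_right h6 (sq_nonneg (coeff p f I))
    linarith
  linarith

open Classical in
theorem hoffman {Q : Type*} (s : Finset Q) (R : Q → Finset ι) {p N : ℝ} (h0 : 0 < p) (h1 : p < 1)
    (hs : (s.card : ℝ) ≤ N)
    (hspread : ∀ I : Finset ι, I.Nonempty →
      ((s.filter (fun v => I ⊆ R v)).card : ℝ) ≤ N * p ^ I.card)
    (A : (ι → Bool) → Prop) :
    ((s.filter (fun v => ¬ ∃ x y, A x ∧ A y ∧ ∀ i ∈ R v, x i = true ∨ y i = true)).card : ℝ) ≤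
      2 * N * (1 - Pr p A) := by
  set c := (1 - p) / p with hc
  set f : (ι → Bool) → ℝ := fun x => if A x then 1 else 0 with hf
  set B := s.filter (fun v => ¬ ∃ x y, A x ∧ A y ∧ ∀ i ∈ R v, x i = true ∨ y i = true) with hB
  have hc0 : 0 ≤ c := div_nonneg (by linarith) h0.le
  have hN : 0 ≤ N := (Nat.cast_nonneg _).trans hs
  have hμ0 := Pr_nonneg h0.le h1.le A
  have hμ1 := Pr_le_one h0.le h1.le A
  have hBs : (B.card : ℝ) ≤ N := le_trans (by exact_mod_cast Finset.card_filter_le _ _) hs
  have key : (B.card : ℝ) * Pr p A ^ 2 ≤ N * (Pr p A - Pr p A ^ 2) := by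
    calc (B.card : ℝ) * Pr p A ^ 2 = ∑ v ∈ B, Pr p A ^ 2 := by simp
      _ ≤ ∑ v ∈ B, ∑ I ∈ (univ : Finset (Finset ι)).erase ∅,
            (if I ⊆ R v then 1 else 0) * (c ^ I.card * coeff p f I ^ 2) := by
          refine Finset.sum_le_sum fun v hv => ?_
          refine (hoffman_one h0 h1 A (R v) (Finset.mem_filter.1 hv).2).trans (le_of_eq ?_)
          simp only [ite_mul, one_mul, zero_mul]
          rw [← Finset.sum_filter]
          refine Finset.sum_congr ?_ fun _ _ => rfl
          ext I
          simp [and_comm]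
      _ ≤ ∑ v ∈ s, ∑ I ∈ (univ : Finset (Finset ι)).erase ∅,
            (if I ⊆ R v then 1 else 0) * (c ^ I.card * coeff p f I ^ 2) := by
          refine Finset.sum_le_sum_of_subset_of_nonneg (Finset.filter_subset _ _) fun v _ _ =>
            Finset.sum_nonneg fun I _ => mul_nonneg (by split_ifs <;> norm_num) (by positivity)
      _ = ∑ I ∈ (univ : Finset (Finset ι)).erase ∅,
            ((s.filter (fun v => I ⊆ R v)).card : ℝ) * (c ^ I.card * coeff p f I ^ 2) := by
          rw [Finset.sum_comm]
          refine Finset.sum_congr rfl fun I _ => ?_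
          rw [← Finset.sum_mul, Finset.sum_boole]
      _ ≤ ∑ I ∈ (univ : Finset (Finset ι)).erase ∅, N * coeff p f I ^ 2 := by
          refine Finset.sum_le_sum fun I hI => ?_
          have hne : I.Nonempty := Finset.nonempty_iff_ne_empty.2 (Finset.mem_erase.1 hI).1
          have h2 := hspread I hne
          have h3 : p ^ I.card * c ^ I.card ≤ 1 := by
            rw [← mul_pow]
            refine pow_le_one₀ (by positivity) ?_
            rw [hc, mul_div_cancel₀ _ h0.ne']
            linarith
          calc _ ≤ N * p ^ I.card * (c ^ I.card * coeff p f I ^ 2) :=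
                mul_le_mul_of_nonneg_right h2 (by positivity)
            _ = N * coeff p f I ^ 2 * (p ^ I.card * c ^ I.card) := by ring
            _ ≤ N * coeff p f I ^ 2 * 1 := mul_le_mul_of_nonneg_left h3 (by positivity)
            _ = _ := mul_one _
      _ = N * (Pr p A - Pr p A ^ 2) := by
          rw [← Finset.mul_sum]
          congr 1
          have h2 := parseval h0 h1 f
          rw [← Finset.add_sum_erase _ _ (Finset.mem_univ ∅), coeff_empty] at h2
          have h3 : Ex p (fun x => f x ^ 2) = Pr p A := by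
            unfold Pr
            refine Ex_congr p fun x => ?_
            simp [hf]
          have h4 : Ex p f = Pr p A := rfl
          rw [h3, h4] at h2
          linarith
  rcases le_total (Pr p A) (1 / 2) with h | h
  · nlinarith
  · have hB0 : (0 : ℝ) ≤ B.card := Nat.cast_nonneg _
    have h2 : (B.card : ℝ) * Pr p A ≤ N * (1 - Pr p A) := by
      have h3 : 0 < Pr p A := by linarith
      refine le_of_mul_le_mul_right ?_ h3
      nlinarith
    nlinarith

theorem integral_step {c : ℝ} (hc : 0 ≤ c) :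
    ∫ u in Set.Ioi (0 : ℝ), (Set.Iio c).indicator (fun _ => (1 : ℝ)) u = c := by
  rw [MeasureTheory.integral_indicator measurableSet_Iio, MeasureTheory.setIntegral_const,
    MeasureTheory.measureReal_restrict_apply measurableSet_Iio, Set.Iio_inter_Ioi]
  simp [hc]

theorem integrable_step (c : ℝ) :
    MeasureTheory.Integrable ((Set.Iio c).indicator (fun _ => (1 : ℝ)))
      (MeasureTheory.volume.restrict (Set.Ioi (0 : ℝ))) := by
  rw [MeasureTheory.integrable_indicator_iff measurableSet_Iio]
  refine MeasureTheory.integrableOn_const ?_ (by simp)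
  rw [MeasureTheory.Measure.restrict_apply measurableSet_Iio, Set.Iio_inter_Ioi]
  simp

open Classical in
/-- Finite layer-cake comparison. -/
theorem layer_cake {α β : Type*} (s : Finset α) (t : Finset β) (m : α → ℝ) (h γ : β → ℝ)
    (hm : ∀ a, 0 ≤ m a) (hh : ∀ b, 0 ≤ h b)
    (H : ∀ u : ℝ, ((s.filter (fun a => u < m a)).card : ℝ) ≤
      ∑ b ∈ t, γ b * (if u < h b then 1 else 0)) :
    ∑ a ∈ s, m a ≤ ∑ b ∈ t, γ b * h b := by
  have h1 : ∑ a ∈ s, m a = ∫ u in Set.Ioi (0 : ℝ),
      ∑ a ∈ s, (Set.Iio (m a)).indicator (fun _ => (1 : ℝ)) u := by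
    rw [MeasureTheory.integral_finsetSum _ fun a _ => integrable_step _]
    exact Finset.sum_congr rfl fun a _ => (integral_step (hm a)).symm
  have h2 : ∑ b ∈ t, γ b * h b = ∫ u in Set.Ioi (0 : ℝ),
      ∑ b ∈ t, γ b * (Set.Iio (h b)).indicator (fun _ => (1 : ℝ)) u := by
    rw [MeasureTheory.integral_finsetSum _ fun b _ => (integrable_step _).const_mul _]
    refine Finset.sum_congr rfl fun b _ => ?_
    rw [MeasureTheory.integral_const_mul, integral_step (hh b)]
  rw [h1, h2]
  refine MeasureTheory.integral_mono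
    (MeasureTheory.integrable_finsetSum _ fun a _ => integrable_step _)
    (MeasureTheory.integrable_finsetSum _ fun b _ => (integrable_step _).const_mul _)
    fun u => ?_
  have := H u
  rw [← Finset.sum_boole] at this
  simpa [Set.indicator_apply] using this

open Classical in
/-- Members of a spread family can be split into two parts, both of which hit each of a small
number of monotone families about as rarely as a random set does. -/
theorem exists_split {Q 𝓤 : Type*} [Fintype Q] (s : Finset Q) (R : Q → Finset ι) {p N Λ : ℝ}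
    (h0 : 0 < p) (h1 : p < 1) (hs : (s.card : ℝ) ≤ N)
    (hspread : ∀ I : Finset ι, I.Nonempty →
      ((s.filter (fun v => I ⊆ R v)).card : ℝ) ≤ N * p ^ I.card)
    (𝒰 : Finset 𝓤) (hΛ : (𝒰.card : ℝ) ≤ Real.exp Λ) (hΛ0 : 0 ≤ Λ) (P : 𝓤 → Finset ι → Prop)
    (hP : ∀ U T T', T ⊆ T' → P U T → P U T') :
    ∃ T : Q → Finset ι, (∀ v, T v ⊆ R v) ∧ ∀ U ∈ 𝒰,
      ((s.filter (fun v => P U (T v))).card : ℝ) +
        ((s.filter (fun v => P U (R v \ T v))).card : ℝ) ≤
        64 * N * Pr p (fun x => P U (sp x)) + 2 * Λ + 1 := by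
  have hN : 0 ≤ N := (Nat.cast_nonneg _).trans hs
  let k : 𝓤 → Q → Finset ι → ℕ := fun U v T =>
    (if P U T then 1 else 0) + (if P U (R v \ T) then 1 else 0)
  have hk : ∀ U v T, k U v T ≤ 2 := by
    intro U v T
    simp only [k]
    split_ifs <;> norm_num
  let t : 𝓤 → ℝ := fun U => N * Pr p (fun x => P U (sp x))
  have ht : ∀ U, 0 ≤ t U := fun U => mul_nonneg hN (Pr_nonneg h0.le h1.le _)
  let w : (Q → Finset ι) → 𝓤 → ℝ := fun T U =>
    Real.exp (-(32 * t U)) * 2 ^ (∑ v ∈ s, k U v (T v))
  have hw : ∀ T U, 0 < w T U := fun T U => by positivity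
  obtain ⟨T, hT, hmin⟩ := Finset.exists_min_image
    (Fintype.piFinset (fun v => (R v).powerset)) (fun T => ∑ U ∈ 𝒰, w T U)
    ⟨fun _ => ∅, by simp⟩
  have hTR : ∀ v, T v ⊆ R v := fun v => Finset.mem_powerset.1 (Fintype.mem_piFinset.1 hT v)
  refine ⟨T, hTR, ?_⟩
  let h : Finset ι → ℝ := fun S => ∑ U ∈ 𝒰, w T U * (if P U S then 1 else 0)
  have hh0 : ∀ S, 0 ≤ h S := fun S =>
    Finset.sum_nonneg fun U _ => mul_nonneg (hw T U).le (by split_ifs <;> norm_num)
  have hhm : ∀ S S', S ⊆ S' → h S ≤ h S' := by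
    intro S S' hSS
    refine Finset.sum_le_sum fun U _ => mul_le_mul_of_nonneg_left ?_ (hw T U).le
    by_cases hU : P U S
    · simp [hU, hP U S S' hSS hU]
    · rw [if_neg hU]; split_ifs <;> norm_num
  have hkh : ∀ v S, ∑ U ∈ 𝒰, w T U * k U v S = h S + h (R v \ S) := by
    intro v S
    simp only [h, k, ← Finset.sum_add_distrib, ← mul_add]
    refine Finset.sum_congr rfl fun U _ => ?_
    push_cast
    rfl
  -- local optimality
  have hloc : ∀ v ∈ s, ∀ S ⊆ R v,
      ∑ U ∈ 𝒰, w T U * k U v (T v) ≤ 4 * ∑ U ∈ 𝒰, w T U * k U v S := by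
    intro v hv S hS
    have h2 := hmin (Function.update T v S) (by
      rw [Fintype.mem_piFinset]
      intro u
      by_cases hu : u = v
      · subst hu; simpa using hS
      · simpa [Function.update_of_ne hu] using hTR u)
    have h3 : ∀ U, w (Function.update T v S) U ≤
        w T U + w T U * (3 / 2 * k U v S - 3 / 8 * k U v (T v)) := by
      intro U
      have h4 : ∑ u ∈ s, k U u (Function.update T v S u) =
          k U v S + ∑ u ∈ s.erase v, k U u (T u) := by
        rw [← Finset.add_sum_erase _ _ hv, Function.update_self]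
        congr 1
        refine Finset.sum_congr rfl fun u hu => ?_
        rw [Function.update_of_ne (Finset.mem_erase.1 hu).1]
      have h5 : ∑ u ∈ s, k U u (T u) = k U v (T v) + ∑ u ∈ s.erase v, k U u (T u) :=
        (Finset.add_sum_erase _ (fun u => k U u (T u)) hv).symm
      simp only [w]
      rw [h4, h5, pow_add _ (k U v S), pow_add _ (k U v (T v))]
      have h6 : (2 : ℝ) ^ k U v S ≤
          2 ^ k U v (T v) * (1 + (3 / 2 * k U v S - 3 / 8 * k U v (T v))) := by
        have ha := hk U v S
        have hb := hk U v (T v)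
        generalize k U v S = a at ha ⊢
        generalize k U v (T v) = b at hb ⊢
        interval_cases a <;> interval_cases b <;> norm_num
      have h7 : 0 ≤ Real.exp (-(32 * t U)) * 2 ^ (∑ u ∈ s.erase v, k U u (T u)) := by positivity
      have := mul_le_mul_of_nonneg_left h6 h7
      linarith
    have h8 := h2.trans (Finset.sum_le_sum fun U _ => h3 U)
    rw [Finset.sum_add_distrib] at h8
    have h9 : ∑ U ∈ 𝒰, w T U * (3 / 2 * k U v S - 3 / 8 * k U v (T v)) =
        3 / 2 * ∑ U ∈ 𝒰, w T U * k U v S - 3 / 8 * ∑ U ∈ 𝒰, w T U * k U v (T v) := by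
      rw [Finset.mul_sum, Finset.mul_sum, ← Finset.sum_sub_distrib]
      exact Finset.sum_congr rfl fun U _ => by ring
    linarith
  have hbest : ∀ v, ∃ S ⊆ R v, ∀ S' ⊆ R v,
      max (h S) (h (R v \ S)) ≤ max (h S') (h (R v \ S')) := by
    intro v
    obtain ⟨S, hS, hS'⟩ := Finset.exists_min_image (R v).powerset
      (fun S => max (h S) (h (R v \ S))) ⟨∅, by simp⟩
    exact ⟨S, Finset.mem_powerset.1 hS, fun S' h' => hS' S' (Finset.mem_powerset.2 h')⟩
  choose B hB hBmin using hbest
  have hlc := layer_cake s univ (fun v => max (h (B v)) (h (R v \ B v)))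
    (fun x : ι → Bool => h (sp x)) (fun x => 2 * N * bernoulliWeight p x)
    (fun v => (hh0 _).trans (le_max_left _ _)) (fun x => hh0 _) (by
      intro u
      have h2 := hoffman s R h0 h1 hs hspread (fun x => h (sp x) ≤ u)
      rw [← Pr_not] at h2
      refine le_trans ?_ (h2.trans (le_of_eq ?_))
      · refine Nat.cast_le.2 (Finset.card_le_card fun v hv => ?_)
        rw [Finset.mem_filter] at hv ⊢
        refine ⟨hv.1, ?_⟩
        rintro ⟨x, y, hx, hy, hxy⟩
        have h3 := hBmin v (R v ∩ sp x) Finset.inter_subset_left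
        have h4 : h (R v ∩ sp x) ≤ u := (hhm _ _ Finset.inter_subset_right).trans hx
        have h5 : h (R v \ (R v ∩ sp x)) ≤ u := by
          refine (hhm _ _ fun i hi => ?_).trans hy
          simp only [Finset.mem_sdiff, Finset.mem_inter, mem_sp] at hi ⊢
          rcases hxy i hi.1 with h6 | h6
          · exact absurd ⟨hi.1, h6⟩ hi.2
          · exact h6
        have h6 := h3.trans (max_le h4 h5)
        linarith [hv.2]
      · unfold Pr Ex
        rw [Finset.mul_sum]
        refine Finset.sum_congr rfl fun x _ => ?_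
        simp only [not_le]
        rw [mul_assoc (2 * N)])
  have hE : ∑ x : ι → Bool, 2 * N * bernoulliWeight p x * h (sp x) =
      2 * ∑ U ∈ 𝒰, w T U * t U := by
    have h2 : Ex p (fun x => h (sp x)) = ∑ U ∈ 𝒰, w T U * Pr p (fun x => P U (sp x)) := by
      simp only [h]
      rw [Ex_sum]
      refine Finset.sum_congr rfl fun U _ => ?_
      rw [Ex_const_mul]
      rfl
    calc _ = 2 * N * Ex p (fun x => h (sp x)) := by
          unfold Ex
          rw [Finset.mul_sum]
          exact Finset.sum_congr rfl fun x _ => by ring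
      _ = _ := by
          rw [h2, mul_assoc, Finset.mul_sum]
          congr 1
          exact Finset.sum_congr rfl fun U _ => by simp only [t]; ring
  have htot : ∑ U ∈ 𝒰, w T U * ((∑ v ∈ s, k U v (T v) : ℕ) - 16 * t U) ≤ 0 := by
    have h2 : ∑ v ∈ s, ∑ U ∈ 𝒰, w T U * k U v (T v) ≤
        ∑ v ∈ s, 8 * max (h (B v)) (h (R v \ B v)) := by
      refine Finset.sum_le_sum fun v hv => (hloc v hv (B v) (hB v)).trans ?_
      rw [hkh]
      linarith [le_max_left (h (B v)) (h (R v \ B v)), le_max_right (h (B v)) (h (R v \ B v))]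
    rw [← Finset.mul_sum, Finset.sum_comm] at h2
    have h3 : ∑ U ∈ 𝒰, w T U * ((∑ v ∈ s, k U v (T v) : ℕ) - 16 * t U) =
        ∑ U ∈ 𝒰, ∑ v ∈ s, w T U * k U v (T v) - 16 * ∑ U ∈ 𝒰, w T U * t U := by
      rw [Finset.mul_sum, ← Finset.sum_sub_distrib]
      refine Finset.sum_congr rfl fun U _ => ?_
      rw [← Finset.mul_sum]
      push_cast
      ring
    rw [h3]
    rw [hE] at hlc
    linarith
  have hlow : ∀ U, -1 ≤ w T U * ((∑ v ∈ s, k U v (T v) : ℕ) - 16 * t U) := by
    intro U
    simp only [w]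
    generalize (∑ v ∈ s, k U v (T v)) = M
    have htU := ht U
    generalize t U = τ at htU
    rcases le_total (16 * τ) M with hc | hc
    · have : 0 ≤ Real.exp (-(32 * τ)) * 2 ^ M * (M - 16 * τ) :=
        mul_nonneg (by positivity) (by linarith)
      linarith
    · have h2 : (2 : ℝ) ^ M ≤ Real.exp M := by
        calc (2 : ℝ) ^ M ≤ Real.exp 1 ^ M :=
              pow_le_pow_left₀ (by norm_num) (by linarith [Real.add_one_le_exp (1 : ℝ)]) _
          _ = Real.exp M := by rw [← Real.exp_nat_mul, mul_one]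
      have h3 : Real.exp (-(32 * τ)) * 2 ^ M ≤ Real.exp (-(16 * τ - M)) := by
        calc _ ≤ Real.exp (-(32 * τ)) * Real.exp M :=
              mul_le_mul_of_nonneg_left h2 (Real.exp_pos _).le
          _ = Real.exp (-(32 * τ) + M) := by rw [Real.exp_add]
          _ ≤ _ := Real.exp_le_exp.2 (by linarith)
      have h4 : Real.exp (-(16 * τ - M)) * (16 * τ - M) ≤ 1 := by
        rw [Real.exp_neg, ← div_eq_inv_mul, div_le_one (Real.exp_pos _)]
        linarith [Real.add_one_le_exp (16 * τ - M)]
      have h5 := mul_le_mul_of_nonneg_right h3 (show 0 ≤ 16 * τ - M by linarith)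
      linarith
  intro U hU
  have hsumk : ((∑ v ∈ s, k U v (T v) : ℕ) : ℝ) = ((s.filter (fun v => P U (T v))).card : ℝ) +
      ((s.filter (fun v => P U (R v \ T v))).card : ℝ) := by
    simp only [k, Finset.sum_add_distrib, Finset.card_filter]
    push_cast
    rfl
  rw [← hsumk]
  by_contra hcon
  push Not at hcon
  rw [← Finset.add_sum_erase _ _ hU] at htot
  have h2 : -((𝒰.card : ℝ)) ≤
      ∑ U ∈ 𝒰.erase U, w T U * ((∑ v ∈ s, k U v (T v) : ℕ) - 16 * t U) := by
    have h3 := Finset.card_nsmul_le_sum (𝒰.erase U) _ (-1) fun U _ => hlow U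
    have h4 : ((𝒰.erase U).card : ℝ) ≤ 𝒰.card := by exact_mod_cast Finset.card_erase_le
    rw [nsmul_eq_mul] at h3
    linarith
  have h3 : Real.exp Λ < w T U * ((∑ v ∈ s, k U v (T v) : ℕ) - 16 * t U) := by
    have htU := ht U
    have hcon' : 64 * t U + 2 * Λ + 1 < (∑ v ∈ s, k U v (T v) : ℕ) := by
      simp only [t]; linarith
    simp only [w]
    generalize (∑ v ∈ s, k U v (T v)) = M at hcon'
    generalize t U = τ at htU hcon'
    have h4 : Real.exp (M / 2) ≤ (2 : ℝ) ^ M := by
      calc Real.exp (M / 2) = Real.exp (1 / 2) ^ M := by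
            rw [← Real.exp_nat_mul]; congr 1; ring
        _ ≤ 2 ^ M := by
            refine pow_le_pow_left₀ (Real.exp_pos _).le ?_ _
            have h5 := Real.add_one_le_exp (-(1 / 2) : ℝ)
            rw [Real.exp_neg] at h5
            have h6 := Real.exp_pos (1 / 2 : ℝ)
            rw [le_inv_comm₀ (by norm_num) h6] at h5
            linarith
    have h5 : Real.exp Λ < Real.exp (-(32 * τ)) * 2 ^ M := by
      calc Real.exp Λ < Real.exp (-(32 * τ) + M / 2) := Real.exp_lt_exp.2 (by linarith)
        _ = Real.exp (-(32 * τ)) * Real.exp (M / 2) := by rw [Real.exp_add]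
        _ ≤ _ := mul_le_mul_of_nonneg_left h4 (Real.exp_pos _).le
    have h6 : (1 : ℝ) ≤ M - 16 * τ := by linarith
    have h7 := Real.exp_pos Λ
    nlinarith
  linarith

end Crest.Agent.R52G
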