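import Crest.Agent.Lib.CubeFourier.Basic

/-!
Finite probability tools on `ι → Bool` (statement S0073).
-/

set_option autoImplicit false

namespace Crest.Agent.R52G

open Finset Crest.FinProb Crest.Agent.Lib.CubeFourier

variable {ι : Type*} [Fintype ι] [DecidableEq ι]

open Classical in
/-- Probability of an event. -/
noncomputable def Pr (p : ℝ) (E : (ι → Bool) → Prop) : ℝ := Ex p (fun x => if E x then 1 else 0)

theorem Pr_le_Ex {p : ℝ} (h0 : 0 ≤ p) (h1 : p ≤ 1) {E : (ι → Bool) → Prop}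
    {F : (ι → Bool) → ℝ} (hF : ∀ x, 0 ≤ F x) (h : ∀ x, E x → 1 ≤ F x) : Pr p E ≤ Ex p F := by
  unfold Pr
  refine Ex_mono h0 h1 fun x => ?_
  split_ifs with hx
  · exact h x hx
  · exact hF x

theorem Ex_le_Pr {p : ℝ} (h0 : 0 ≤ p) (h1 : p ≤ 1) {E : (ι → Bool) → Prop}
    {F : (ι → Bool) → ℝ} (hF : ∀ x, F x ≤ 1) (h : ∀ x, ¬ E x → F x ≤ 0) : Ex p F ≤ Pr p E := by
  unfold Pr
  refine Ex_mono h0 h1 fun x => ?_
  split_ifs with hx
  · exact hF x
  · exact h x hx

theorem Pr_nonneg {p : ℝ} (h0 : 0 ≤ p) (h1 : p ≤ 1) (E : (ι → Bool) → Prop) : 0 ≤ Pr p E := by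
  unfold Pr
  refine Ex_nonneg h0 h1 fun x => ?_
  split_ifs <;> norm_num

theorem Pr_le_one {p : ℝ} (h0 : 0 ≤ p) (h1 : p ≤ 1) (E : (ι → Bool) → Prop) : Pr p E ≤ 1 := by
  have := Pr_le_Ex h0 h1 (E := E) (F := fun _ => 1) (fun _ => zero_le_one) (fun _ _ => le_rfl)
  rwa [Ex_const] at this

theorem Pr_mono {p : ℝ} (h0 : 0 ≤ p) (h1 : p ≤ 1) {E F : (ι → Bool) → Prop}
    (h : ∀ x, E x → F x) : Pr p E ≤ Pr p F := by
  refine Pr_le_Ex h0 h1 (fun x => ?_) (fun x hx => ?_)
  · split_ifs <;> norm_num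
  · rw [if_pos (h x hx)]

theorem Pr_congr (p : ℝ) {E F : (ι → Bool) → Prop} (h : ∀ x, E x ↔ F x) : Pr p E = Pr p F := by
  have : E = F := funext fun x => propext (h x)
  rw [this]

theorem Pr_not (p : ℝ) (E : (ι → Bool) → Prop) : Pr p (fun x => ¬ E x) = 1 - Pr p E := by
  have h := Ex_sub (ι := ι) p (fun _ => 1) (fun x => open Classical in if E x then 1 else 0)
  rw [Ex_const] at h
  unfold Pr
  rw [← h]
  refine Ex_congr p fun x => ?_
  by_cases h : E x <;> simp [h]

theorem Pr_true (p : ℝ) : Pr p (fun _ : ι → Bool => True) = 1 := by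
  unfold Pr
  simp [Ex_const]

theorem Pr_false (p : ℝ) : Pr p (fun _ : ι → Bool => False) = 0 := by
  unfold Pr
  simp [Ex_const]

theorem Pr_or_le {p : ℝ} (h0 : 0 ≤ p) (h1 : p ≤ 1) (E F : (ι → Bool) → Prop) :
    Pr p (fun x => E x ∨ F x) ≤ Pr p E + Pr p F := by
  unfold Pr
  rw [← Ex_add]
  refine Ex_mono h0 h1 fun x => ?_
  by_cases h : E x <;> by_cases h' : F x <;> simp [h, h']

theorem Pr_split (p : ℝ) (E F : (ι → Bool) → Prop) :
    Pr p E = Pr p (fun x => E x ∧ F x) + Pr p (fun x => E x ∧ ¬ F x) := by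
  unfold Pr
  rw [← Ex_add]
  refine Ex_congr p fun x => ?_
  by_cases h : E x <;> by_cases h' : F x <;> simp [h, h']

theorem Pr_exists_le {α : Type*} {p : ℝ} (h0 : 0 ≤ p) (h1 : p ≤ 1) (s : Finset α)
    (E : α → (ι → Bool) → Prop) :
    Pr p (fun x => ∃ a ∈ s, E a x) ≤ ∑ a ∈ s, Pr p (E a) := by
  classical
  unfold Pr
  rw [← Ex_sum]
  refine Ex_mono h0 h1 fun x => ?_
  split_ifs with hx
  · obtain ⟨a, ha, hE⟩ := hx
    refine le_trans ?_ (Finset.single_le_sum (f := fun a => if E a x then (1 : ℝ) else 0)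
      (fun b _ => by split_ifs <;> norm_num) ha)
    simp [hE]
  · exact Finset.sum_nonneg fun b _ => by split_ifs <;> norm_num

theorem Pr_exists_le_card {α : Type*} {p : ℝ} (h0 : 0 ≤ p) (h1 : p ≤ 1) (s : Finset α)
    (E : α → (ι → Bool) → Prop) {c : ℝ} (h : ∀ a ∈ s, Pr p (E a) ≤ c) :
    Pr p (fun x => ∃ a ∈ s, E a x) ≤ s.card * c := by
  refine (Pr_exists_le h0 h1 s E).trans ?_
  have := Finset.sum_le_card_nsmul s _ c h
  rwa [nsmul_eq_mul] at this

/-- Coordinatewise push-forward of product weights. -/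
theorem sum_pi_push {A B : Type*} [Fintype A] [Fintype B] [DecidableEq B] (a : ι → A → ℝ)
    (φ : ι → A → B) (F : (ι → B) → ℝ) :
    ∑ x : ι → A, (∏ i, a i (x i)) * F (fun i => φ i (x i)) =
      ∑ z : ι → B, (∏ i, ∑ α ∈ univ.filter (fun α => φ i α = z i), a i α) * F z := by
  classical
  rw [← Finset.sum_fiberwise (s := univ) (g := fun x : ι → A => fun i => φ i (x i))]
  refine Finset.sum_congr rfl fun z _ => ?_
  rw [Finset.prod_univ_sum, Finset.sum_mul]
  have : univ.filter (fun x : ι → A => (fun i => φ i (x i)) = z) =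
      Fintype.piFinset (fun i => univ.filter (fun α => φ i α = z i)) := by
    ext x
    simp [funext_iff]
  rw [this]
  refine Finset.sum_congr rfl fun x hx => ?_
  have h : (fun i => φ i (x i)) = z := by
    funext i
    simpa using (Fintype.mem_piFinset.1 hx) i
  rw [h]

theorem Ex_prod (p : ℝ) (f : ι → Bool → ℝ) :
    Ex p (fun x => ∏ i, f i (x i)) = ∏ i, (p * f i true + (1 - p) * f i false) := by
  unfold Ex bernoulliWeight
  have := Finset.prod_univ_sum (fun _ : ι => (Finset.univ : Finset Bool))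
    (fun (i : ι) (b : Bool) => (if b then p else 1 - p) * f i b)
  rw [Fintype.piFinset_univ] at this
  simp only [← Finset.prod_mul_distrib]
  rw [← this]
  simp

/-- The union of two independent random sets. -/
theorem Ex_or (p q : ℝ) (F : (ι → Bool) → ℝ) :
    Ex p (fun x => Ex q (fun y => F (fun i => x i || y i))) = Ex (p + q - p * q) F := by
  have h := sum_pi_push (ι := ι) (A := Bool × Bool) (B := Bool)
    (fun _ ab => (if ab.1 then p else 1 - p) * (if ab.2 then q else 1 - q))
    (fun _ ab => ab.1 || ab.2) F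
  unfold Ex bernoulliWeight
  have h2 : ∀ z : ι → Bool, (∏ i, ∑ α ∈ univ.filter (fun α : Bool × Bool => (α.1 || α.2) = z i),
      (if α.1 then p else 1 - p) * (if α.2 then q else 1 - q)) =
      ∏ i, if z i then (p + q - p * q) else 1 - (p + q - p * q) := by
    intro z
    refine Finset.prod_congr rfl fun i _ => ?_
    rw [Finset.sum_filter, Fintype.sum_prod_type]
    cases z i <;> simp <;> ring
  simp only [h2] at h
  rw [← h]
  simp only [Finset.mul_sum]
  rw [← Finset.sum_product', Finset.univ_product_univ]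
  refine (Fintype.sum_equiv (Equiv.arrowProdEquivProdArrow ι (fun _ => Bool) (fun _ => Bool))
    _ _ fun x => ?_).symm
  simp only [Finset.prod_mul_distrib, Equiv.arrowProdEquivProdArrow_apply]
  ring

/-- Conditioning on containing a fixed set. -/
theorem Ex_force (p : ℝ) (T : Finset ι) (F : (ι → Bool) → ℝ) :
    Ex p (fun x => (if ∀ i ∈ T, x i = true then 1 else 0) * F x) =
      p ^ T.card * Ex p (fun y => F (fun i => decide (i ∈ T) || y i)) := by
  have h := sum_pi_push (ι := ι) (A := Bool) (B := Bool)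
    (fun _ b => if b then p else 1 - p) (fun i b => decide (i ∈ T) || b) F
  unfold Ex bernoulliWeight
  rw [h, Finset.mul_sum]
  refine Finset.sum_congr rfl fun z _ => ?_
  rw [← mul_assoc, ← mul_assoc]
  congr 1
  have h1 : (if ∀ i ∈ T, z i = true then (1 : ℝ) else 0) =
      ∏ i, if i ∈ T then (if z i then 1 else 0) else 1 := by
    split_ifs with hz
    · refine (Finset.prod_eq_one fun i _ => ?_).symm
      by_cases hi : i ∈ T
      · simp [hi, hz i hi]
      · simp [hi]
    · push Not at hz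
      obtain ⟨i, hi, hzi⟩ := hz
      refine (Finset.prod_eq_zero (Finset.mem_univ i) ?_).symm
      simp [hi, hzi]
  have h2 : p ^ T.card = ∏ i, if i ∈ T then p else 1 := by
    rw [Finset.prod_ite_mem, Finset.univ_inter, Finset.prod_const]
  rw [h1, h2, ← Finset.prod_mul_distrib, ← Finset.prod_mul_distrib]
  refine Finset.prod_congr rfl fun i _ => ?_
  rw [Finset.sum_filter]
  by_cases hi : i ∈ T <;> cases z i <;> simp [hi]

theorem Pr_superset (p : ℝ) (T : Finset ι) :
    Pr p (fun x => ∀ i ∈ T, x i = true) = p ^ T.card := by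
  have := Ex_force p T (fun _ => 1)
  simp only [mul_one, Ex_const] at this
  unfold Pr
  convert this

/-- Restriction along an injection. -/
theorem Ex_comp_inj {κ : Type*} [Fintype κ] [DecidableEq κ] (p : ℝ) (e : κ → ι)
    (he : Function.Injective e) (F : (κ → Bool) → ℝ) :
    Ex p (fun ω : ι → Bool => F (fun k => ω (e k))) = Ex p F := by
  classical
  let P : ι → Prop := fun i => i ∈ Set.range e
  let E := Equiv.piEquivPiSubtypeProd P (fun _ => Bool)
  let e' : κ ≃ {i // P i} := Equiv.ofInjective e he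
  unfold Ex
  rw [← Fintype.sum_equiv E.symm (fun yz => bernoulliWeight p yz.1 * bernoulliWeight p yz.2 *
    F (fun k => yz.1 (e' k))) _ (fun yz => ?_)]
  · rw [Fintype.sum_prod_type]
    have h1 : ∀ y : {i // P i} → Bool, ∑ z : {i // ¬ P i} → Bool,
        bernoulliWeight p y * bernoulliWeight p z * F (fun k => y (e' k)) =
        bernoulliWeight p y * F (fun k => y (e' k)) := by
      intro y
      rw [← Finset.sum_mul, ← Finset.mul_sum, sum_weight, mul_one]
    simp only [h1]
    refine Fintype.sum_equiv (Equiv.arrowCongr e'.symm (Equiv.refl Bool)) _ _ fun y => ?_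
    congr 1
    unfold bernoulliWeight
    exact (Fintype.prod_equiv e' _ _ fun k => by simp).symm
  · congr 1
    · unfold bernoulliWeight
      rw [← Fintype.prod_subtype_mul_prod_subtype P]
      congr 1
      · refine Finset.prod_congr (by convert rfl) fun i _ => ?_
        simp [E, Equiv.piEquivPiSubtypeProd, i.2]
      · refine Finset.prod_congr (by convert rfl) fun i _ => ?_
        simp [E, Equiv.piEquivPiSubtypeProd, i.2]
    · congr 1
      funext k
      have hk : P (e k) := ⟨k, rfl⟩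
      simp only [E, Equiv.piEquivPiSubtypeProd, Equiv.coe_fn_symm_mk, hk, dif_pos]
      rfl

theorem Pr_comp_inj {κ : Type*} [Fintype κ] [DecidableEq κ] (p : ℝ) (e : κ → ι)
    (he : Function.Injective e) (E : (κ → Bool) → Prop) :
    Pr p (fun ω : ι → Bool => E (fun k => ω (e k))) = Pr p E := by
  classical
  unfold Pr
  exact Ex_comp_inj p e he (fun y => if E y then 1 else 0)

section Rows

variable {Z X : Type*} [Fintype Z] [DecidableEq Z] [Fintype X] [DecidableEq X]

theorem Ex_rows (p : ℝ) (F : (Z → X → Bool) → ℝ) :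
    Ex p (fun ω : Z × X → Bool => F (fun z x => ω (z, x))) =
      ∑ ω : Z → X → Bool, (∏ z, bernoulliWeight p (ω z)) * F ω := by
  unfold Ex
  refine Fintype.sum_equiv (Equiv.curry Z X Bool) _ _ fun ω => ?_
  congr 1
  unfold bernoulliWeight
  rw [Fintype.prod_prod_type]
  rfl

theorem Ex_rows_prod (p : ℝ) (f : Z → (X → Bool) → ℝ) :
    Ex p (fun ω : Z × X → Bool => ∏ z, f z (fun x => ω (z, x))) = ∏ z, Ex p (f z) := by
  rw [Ex_rows p (fun ω => ∏ z, f z (ω z))]
  unfold Ex
  rw [Finset.prod_univ_sum, Fintype.piFinset_univ]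
  simp only [Finset.prod_mul_distrib]

theorem Ex_rows_succ (p : ℝ) (a : ℕ) (F : (Fin (a + 1) → X → Bool) → ℝ) :
    Ex p (fun ω : Fin (a + 1) × X → Bool => F (fun z x => ω (z, x))) =
      Ex p (fun y : X → Bool => Ex p (fun ω : Fin a × X → Bool =>
        F (Fin.cons y (fun z x => ω (z, x))))) := by
  rw [Ex_rows]
  have h : ∀ y : X → Bool, Ex p (fun ω : Fin a × X → Bool => F (Fin.cons y (fun z x => ω (z, x)))) =
      ∑ ω : Fin a → X → Bool, (∏ z, bernoulliWeight p (ω z)) * F (Fin.cons y ω) :=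
    fun y => Ex_rows p (fun ω => F (Fin.cons y ω))
  simp only [h]
  unfold Ex
  simp only [Finset.mul_sum]
  rw [← Finset.sum_product', Finset.univ_product_univ]
  refine (Fintype.sum_equiv (Fin.consEquiv (fun _ => X → Bool)) _ _ fun yω => ?_).symm
  simp only [Fin.consEquiv_apply, Fin.prod_univ_succ, Fin.cons_zero, Fin.cons_succ]
  rw [← mul_assoc]
  rfl

open Classical in
/-- Lower tail for the number of rows satisfying an event. -/
theorem Pr_rows_few {p : ℝ} (h0 : 0 ≤ p) (h1 : p ≤ 1) (U : (X → Bool) → Prop) {β a : ℝ}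
    (hβ : β ≤ Pr p U) :
    Pr p (fun ω : Z × X → Bool =>
      ((univ.filter (fun z => U (fun x => ω (z, x)))).card : ℝ) ≤ a) ≤
      Real.exp (a - β * Fintype.card Z / 2) := by
  have key := Ex_rows_prod (Z := Z) p (fun _ y => if U y then (1 / 2 : ℝ) else 1)
  have h2 : Ex p (fun y : X → Bool => if U y then (1 / 2 : ℝ) else 1) = 1 - Pr p U / 2 := by
    have h := Ex_sub (ι := X) p (fun _ => 1) (fun y => (if U y then 1 else 0) * (1 / 2))
    rw [Ex_const, Ex_mul_const] at h
    unfold Pr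
    rw [div_eq_mul_one_div (Ex p _), ← h]
    refine Ex_congr p fun y => ?_
    split_ifs <;> norm_num
  rw [h2, Finset.prod_const, Finset.card_univ] at key
  have h3 : (1 - Pr p U / 2) ^ Fintype.card Z ≤ Real.exp (-(β * Fintype.card Z / 2)) := by
    have h4 : 1 - Pr p U / 2 ≤ Real.exp (-(β / 2)) := by
      have := Real.add_one_le_exp (-(β / 2))
      linarith
    have h5 : 0 ≤ 1 - Pr p U / 2 := by linarith [Pr_le_one h0 h1 U]
    calc _ ≤ Real.exp (-(β / 2)) ^ Fintype.card Z := pow_le_pow_left₀ h5 h4 _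
      _ = _ := by rw [← Real.exp_nat_mul]; congr 1; ring
  calc _ ≤ Ex p (fun ω : Z × X → Bool => Real.exp a *
        ∏ z, if U (fun x => ω (z, x)) then (1 / 2 : ℝ) else 1) := by
        refine Pr_le_Ex h0 h1 (fun ω => mul_nonneg (Real.exp_pos _).le
          (Finset.prod_nonneg fun z _ => by split_ifs <;> norm_num)) fun ω hω => ?_
        rw [Finset.prod_ite, Finset.prod_const, Finset.prod_const, one_pow, mul_one]
        set N := (univ.filter (fun z => U (fun x => ω (z, x)))).card
        have h6 : (2 : ℝ) ^ N ≤ Real.exp a := by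
          calc (2 : ℝ) ^ N ≤ Real.exp 1 ^ N :=
              pow_le_pow_left₀ (by norm_num) (by linarith [Real.add_one_le_exp (1 : ℝ)]) _
            _ = Real.exp N := by rw [← Real.exp_nat_mul, mul_one]
            _ ≤ Real.exp a := Real.exp_le_exp.2 hω
        rw [one_div, inv_pow, ← div_eq_mul_inv, le_div_iff₀ (by positivity), one_mul]
        exact h6
    _ = Real.exp a * (1 - Pr p U / 2) ^ Fintype.card Z := by rw [Ex_const_mul, key]
    _ ≤ Real.exp a * Real.exp (-(β * Fintype.card Z / 2)) :=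
        mul_le_mul_of_nonneg_left h3 (Real.exp_pos _).le
    _ = _ := by rw [← Real.exp_add]; congr 1

open Classical in
/-- Upper tail for the number of rows satisfying a rare event. -/
theorem Pr_rows_many {p : ℝ} (h0 : 0 ≤ p) (h1 : p ≤ 1) (U : (X → Bool) → Prop) {c a : ℝ}
    (hc : 0 ≤ c) (hU : Pr p U ≤ Real.exp (-c)) :
    Pr p (fun ω : Z × X → Bool =>
      a ≤ ((univ.filter (fun z => U (fun x => ω (z, x)))).card : ℝ)) ≤
      Real.exp (Fintype.card Z - c * a) := by
  have key := Ex_rows_prod (Z := Z) p (fun _ y => if U y then Real.exp c else 1)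
  have h2 : Ex p (fun y : X → Bool => if U y then Real.exp c else 1) ≤ Real.exp 1 := by
    have h3 : Ex p (fun y : X → Bool => if U y then Real.exp c else 1) ≤
        Ex p (fun y : X → Bool => 1 + Real.exp c * (if U y then 1 else 0)) := by
      refine Ex_mono h0 h1 fun y => ?_
      split_ifs <;> simp
    rw [Ex_add, Ex_const, Ex_const_mul] at h3
    have h4 : Real.exp c * Pr p U ≤ 1 := by
      calc _ ≤ Real.exp c * Real.exp (-c) := mul_le_mul_of_nonneg_left hU (Real.exp_pos _).le
        _ = 1 := by rw [← Real.exp_add]; simp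
    have h5 := Real.add_one_le_exp (1 : ℝ)
    unfold Pr at h4
    linarith
  have h2' : 0 ≤ Ex p (fun y : X → Bool => if U y then Real.exp c else 1) :=
    Ex_nonneg h0 h1 fun y => by split_ifs <;> positivity
  rw [Finset.prod_const, Finset.card_univ] at key
  calc _ ≤ Ex p (fun ω : Z × X → Bool => Real.exp (-(c * a)) *
        ∏ z, if U (fun x => ω (z, x)) then Real.exp c else 1) := by
        refine Pr_le_Ex h0 h1 (fun ω => mul_nonneg (Real.exp_pos _).le
          (Finset.prod_nonneg fun z _ => by split_ifs <;> positivity)) fun ω hω => ?_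
        rw [Finset.prod_ite, Finset.prod_const, Finset.prod_const, one_pow, mul_one,
          ← Real.exp_nat_mul, ← Real.exp_add]
        refine Real.one_le_exp ?_
        nlinarith
    _ = Real.exp (-(c * a)) * (Ex p (fun y : X → Bool => if U y then Real.exp c else 1)) ^
        Fintype.card Z := by rw [Ex_const_mul, key]
    _ ≤ Real.exp (-(c * a)) * Real.exp 1 ^ Fintype.card Z :=
        mul_le_mul_of_nonneg_left (pow_le_pow_left₀ h2' h2 _) (Real.exp_pos _).le
    _ = _ := by rw [← Real.exp_nat_mul, ← Real.exp_add]; congr 1; ring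

end Rows

/-- Monotone events on the cube. -/
def Up (U : (ι → Bool) → Prop) : Prop :=
  ∀ x y : ι → Bool, (∀ i, x i = true → y i = true) → U x → U y

theorem Pr_not_or_le {p q : ℝ} (h0 : 0 ≤ p) (h1 : p ≤ 1) (h0' : 0 ≤ q) (h1' : q ≤ 1)
    {U : (ι → Bool) → Prop} (hU : Up U) :
    1 - Pr (p + q - p * q) U ≤ (1 - Pr p U) * (1 - Pr q U) := by
  classical
  rw [← Pr_not, ← Pr_not, ← Pr_not]
  unfold Pr
  rw [← Ex_or, ← Ex_mul_const]
  refine Ex_mono h0 h1 fun x => ?_
  rw [← Ex_const_mul]
  refine Ex_mono h0' h1' fun y => ?_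
  by_cases hx : U x
  · have : U (fun i => x i || y i) := hU _ _ (fun i hi => by simp [hi]) hx
    simp [hx, this]
  · by_cases hy : U y
    · have : U (fun i => x i || y i) := hU _ _ (fun i hi => by simp [hi]) hy
      simp [hy, this]
    · simp only [hx, hy, not_false_eq_true, if_true, mul_one]
      split_ifs <;> norm_num

theorem Pr_mono_p {p q : ℝ} (h0 : 0 ≤ p) (hpq : p ≤ q) (h1 : q ≤ 1)
    {U : (ι → Bool) → Prop} (hU : Up U) : Pr p U ≤ Pr q U := by
  rcases eq_or_lt_of_le (hpq.trans h1) with h | h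
  · have : q = p := by linarith
    rw [this]
  · have hs0 : 0 ≤ (q - p) / (1 - p) := div_nonneg (by linarith) (by linarith)
    have hs1 : (q - p) / (1 - p) ≤ 1 := by rw [div_le_one (by linarith)]; linarith
    have key := Pr_not_or_le h0 h.le hs0 hs1 hU
    have h2 : p + (q - p) / (1 - p) - p * ((q - p) / (1 - p)) = q := by
      have : (1 - p) ≠ 0 := by linarith
      field_simp
      ring
    rw [h2] at key
    have h3 := Pr_nonneg hs0 hs1 U
    have h4 := Pr_le_one h0 h.le U
    nlinarith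

theorem Pr_not_pow_le {p : ℝ} (h0 : 0 ≤ p) (h1 : p ≤ 1) {U : (ι → Bool) → Prop} (hU : Up U)
    (M : ℕ) : 1 - Pr (1 - (1 - p) ^ M) U ≤ (1 - Pr p U) ^ M := by
  induction M with
  | zero =>
    have := Pr_nonneg (le_refl (0 : ℝ)) zero_le_one U
    simpa using this
  | succ M ih =>
    have ha : 0 ≤ (1 - p) ^ M := pow_nonneg (by linarith) _
    have hb : (1 - p) ^ M ≤ 1 := pow_le_one₀ (by linarith) (by linarith)
    have key := Pr_not_or_le (p := 1 - (1 - p) ^ M) (q := p) (by linarith) (by linarith) h0 h1 hU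
    have h2 : 1 - (1 - p) ^ M + p - (1 - (1 - p) ^ M) * p = 1 - (1 - p) ^ (M + 1) := by ring
    rw [h2] at key
    rw [pow_succ (1 - Pr p U)]
    exact key.trans (mul_le_mul_of_nonneg_right ih (by linarith [Pr_le_one h0 h1 U]))

/-- Boosting a monotone event by raising the density. -/
theorem Pr_boost {p ρ : ℝ} (h0 : 0 ≤ p) (h1 : p ≤ 1) {U : (ι → Bool) → Prop} (hU : Up U)
    (M : ℕ) (hρ : M * p ≤ ρ) (hρ1 : ρ ≤ 1) :
    min (M * Pr p U / 2) (1 / 2) ≤ Pr ρ U := by
  have hb : 1 - (1 - p) ^ M ≤ ρ := by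
    have := one_add_mul_le_pow (a := -p) (by linarith) M
    have h2 : (1 + -p) = 1 - p := by ring
    rw [h2] at this
    linarith
  have ha : 0 ≤ 1 - (1 - p) ^ M := by
    have : (1 - p) ^ M ≤ 1 := pow_le_one₀ (by linarith) (by linarith)
    linarith
  have h3 := Pr_mono_p ha hb hρ1 hU
  have h4 := Pr_not_pow_le h0 h1 hU M
  set β := Pr p U
  have hβ0 : 0 ≤ β := Pr_nonneg h0 h1 U
  have hβ1 : β ≤ 1 := Pr_le_one h0 h1 U
  have h5 : (1 - β) ^ M * (1 + M * β) ≤ 1 := by
    calc (1 - β) ^ M * (1 + M * β) ≤ (1 - β) ^ M * (1 + β) ^ M :=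
        mul_le_mul_of_nonneg_left (one_add_mul_le_pow (by linarith) M)
          (pow_nonneg (by linarith) _)
      _ = ((1 - β) * (1 + β)) ^ M := by rw [mul_pow]
      _ ≤ 1 := pow_le_one₀ (by nlinarith) (by nlinarith)
  have h6 : 0 ≤ (M : ℝ) * β := mul_nonneg (Nat.cast_nonneg _) hβ0
  have h7 : 0 ≤ (1 - β) ^ M := pow_nonneg (by linarith) _
  rcases le_total ((M : ℝ) * β) 1 with h | h
  · refine (min_le_left _ _).trans ?_
    nlinarith
  · refine (min_le_right _ _).trans ?_
    nlinarith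

end Crest.Agent.R52G
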